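import Vale.Agent.P237.Petty.Cor.Few.Orders6.Cert1

/-!
# P237: the joined certificates of the orders four and five
-/

namespace Vale.Agent.P237.Petty.Cor.Few

open Vale.Agent.P100.Bernstein

end Vale.Agent.P237.Petty.Cor.Few
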