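import Vale.Agent.P237.Petty.Cor.Few.Orders6.Record
import Vale.Agent.P237.Petty.Cor.Few.Mask

/-!
# P237: certificates, part 1, of the orders four and five

The Bernstein test on bisections, evaluated by the kernel.
-/

namespace Vale.Agent.P237.Petty.Cor.Few

open Vale.Agent.P100.Bernstein

theorem one6_0 : certify false data6.eP
    [⟨0, 0, 1⟩, ⟨0, 1, 1⟩, ⟨7, 8, 1⟩, ⟨0, 1, 1⟩] (
    .leaf) = true := by
  refine certify_of_quick ?_
  decide +kernel

theorem dom6_0 : certify false data6.eDom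
    [⟨0, 0, 1⟩, ⟨0, 1, 1⟩, ⟨7, 8, 1⟩, ⟨0, 1, 1⟩] (
    .leaf) = true := by
  refine certify_of_quick ?_
  decide +kernel

theorem pos6_0 : certify false data6.eQ
    [⟨0, 0, 1⟩, ⟨0, 1, 1⟩, ⟨7, 8, 1⟩, ⟨0, 1, 1⟩] (
    .leaf) = true := by
  refine certify_of_quick ?_
  decide +kernel

theorem fast6_0 : certify false data6.eOne
    [⟨0, 1, 1⟩, ⟨0, 1, 1⟩, ⟨7, 8, 1⟩, ⟨0, 7, 8⟩] (
    .split 0 (.split 1 .leaf (.split 3 (.split 0 .leaf (.split 0 .leaf .leaf)) (.split 0 (.split 0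
    (.split 1 .leaf (.split 3 .leaf (.split 0 (.split 0 (.split 0 (.split 0 .leaf .leaf) .leaf)
    .leaf) .leaf))) .leaf) .leaf))) (.split 3 (.split 0 (.split 3 .leaf (.split 0 .leaf (.split 0
    .leaf .leaf))) (.split 3 (.split 1 (.split 0 .leaf (.split 3 .leaf (.split 0 .leaf (.split 1
    .leaf .leaf)))) (.split 0 (.split 3 .leaf (.split 1 .leaf (.split 0 .leaf .leaf))) (.split 3
    .leaf (.split 1 (.split 0 (.split 1 (.split 3 .leaf .leaf) (.split 3 (.split 0 .leaf .leaf)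
    .leaf)) (.split 3 (.split 1 (.split 1 .leaf .leaf) .leaf) .leaf)) (.split 0 (.split 0 .leaf
    .leaf) .leaf))))) (.split 1 .leaf (.split 0 (.split 1 .leaf .leaf) .leaf)))) .leaf)) = true := by
  refine certify_of_quick ?_
  decide +kernel

theorem slowCert6_0 : certify false data6.eOne
    [⟨1, 2, 1⟩, ⟨0, 1, 1⟩, ⟨7, 8, 1⟩, ⟨0, 7, 8⟩] (
    .split 0 (.split 3 (.split 0 (.split 3 (.split 1 (.split 1 (.split 0 .leaf .leaf) (.split 0
    (.split 3 (.split 2 (.split 3 .leaf (.split 0 (.split 1 .leaf .leaf) .leaf)) .leaf) (.split 1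
    .leaf (.split 0 (.split 0 .leaf .leaf) .leaf))) .leaf)) (.split 0 (.split 3 .leaf .leaf)
    .leaf)) .leaf) .leaf) .leaf) .leaf) = true := by
  refine certify_of_quick ?_
  decide +kernel

theorem far6_0 : certify false data6.eOne
    [⟨1, 32, 16⟩, ⟨0, 1, 1⟩, ⟨7, 8, 1⟩, ⟨7, 8, 8⟩] (
    .leaf) = true := by
  refine certify_of_quick ?_
  decide +kernel

theorem corner6_0 : certify false data6.eCorner
    [⟨0, 0, 1⟩, ⟨0, 1, 1⟩, ⟨7, 8, 1⟩, ⟨7, 8, 8⟩] (
    .leaf) = true := by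
  refine certify_of_quick ?_
  decide +kernel

theorem room6_0 : certify false data6.eEnd
    [⟨0, 0, 1⟩, ⟨0, 1, 1⟩, ⟨7, 8, 1⟩, ⟨0, 1, 1⟩] (
    .split 1 (.split 3 (.split 3 .leaf .leaf) .leaf) (.split 1 .leaf .leaf)) = true := by
  refine certify_of_quick ?_
  decide +kernel

theorem mean6_0 : certify false data6.eMean
    [⟨0, 0, 1⟩, ⟨0, 0, 1⟩, ⟨7, 8, 1⟩] (
    .leaf) = true := by
  refine certify_of_quick ?_
  decide +kernel

end Vale.Agent.P237.Petty.Cor.Few
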