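import Vale.Agent.P237.Petty.Cor.Few.Data

/-!
# P237: the field for the orders four and five
-/

namespace Vale.Agent.P237.Petty.Cor.Few

/-- The field on `7 ≤ M ≤ 8`. -/
def data6 : Data where
  lo := 7
  hi := 8
  nu0 := (667, 1000)
  nu1 := (267, 1000)
  b0 := (-11, 1000)
  b1 := (9, 5000)
  bm := (1361, 1000)
  k0 := (1329, 1000)
  k1 := (73, 1000)
  g := (883, 1000)
  d1 := (1907, 1000)
  w0 := (11, 4)
  v0 := (2, 1)
  lv := (1386, 1000)
  lam := (8, 1)
  ell := (5, 1)
  zc := (2, 15)
  a i := [(29629, 250000), (-2169433, 1000000), (2027187, 200000), (13435539, 500000),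
    (6182603, 1000000), (8, 5), (302963, 1000000), (-619401, 100000),
    (40421661, 1000000)].getD i (0, 1)

end Vale.Agent.P237.Petty.Cor.Few
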